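import Vale.Agent.P204.BMain

open scoped ContDiff
open Matrix

namespace Vale.Agent.Results.P204.MappingTori

open Vale.Agent.P204

/-- Let `A` be in `SL(3, Z)`, let `X_A` be the closed four-manifold `(R x T^3) / Z`, where `Z` acts
by `(t, y) ↦ (t + 1, A y)` (so `X_1 = T^4`), and let `J` be a smooth almost complex structure
on `X_A` whose lift to `R x T^3` is invariant under the translations of `T^3`.
The following are equivalent:
(1) `J` is tamed by some symplectic form on `X_A` (no invariance of the form is assumed);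
(2) `J` is compatible with some symplectic form on `X_A`;
(3) `J` is compatible with some symplectic form on `X_A` whose lift is invariant under the
translations of `T^3`;
(4) for some fixed vector `b` of `R^3` with `A b = b` the first component of `J (0, b)`
vanishes nowhere. -/
theorem result (A : Matrix (Fin 3) (Fin 3) ℤ) (hA : A.det = 1) (J : Field)
    (hJ : AlmostComplexOn A J) (hT : TorusInvariant J) :
    ((∃ w, TwoFormOn A w ∧ IsClosedForm w ∧ Tames w J) ↔
      (∃ w, TwoFormOn A w ∧ IsClosedForm w ∧ Tames w J ∧ Invariant w J)) ∧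
    ((∃ w, TwoFormOn A w ∧ IsClosedForm w ∧ Tames w J) ↔
      (∃ w, TwoFormOn A w ∧ TorusInvariant w ∧ IsClosedForm w ∧ Tames w J ∧ Invariant w J)) ∧
    ((∃ w, TwoFormOn A w ∧ IsClosedForm w ∧ Tames w J) ↔
      (∃ b : Fin 3 → ℝ, (∀ k, ∑ l, (A k l : ℝ) * b l = b k) ∧
        ∀ x, ∑ k, J x 0 k.succ * b k ≠ 0)) := by
  have h2 : ∀ b : Fin 4 → ℝ, b 0 = 0 → ∀ x, pp (J x) b = ∑ k : Fin 3, J x 0 k.succ * b k.succ := by
    intro b hb x
    simp only [pp, mulVec, dotProduct, Fin.sum_univ_succ (n := 3), hb, mul_zero, zero_add]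
  have h3 : (∃ b : Fin 3 → ℝ, (∀ k, ∑ l, (A k l : ℝ) * b l = b k) ∧
        ∀ x, ∑ k, J x 0 k.succ * b k ≠ 0) →
      ∃ w, TwoFormOn A w ∧ TorusInvariant w ∧ IsClosedForm w ∧ Tames w J ∧ Invariant w J := by
    rintro ⟨b, hAb, hb⟩
    refine exists_compatibleB hA hJ hT (b := Fin.cons 0 b) rfl ?_ fun x => ?_
    · ext k
      refine Fin.cases ?_ (fun k => ?_) k
      · rw [blk_zero]
      · rw [blk_succ]
        simpa [mulVec, dotProduct, re_apply] using hAb k
    · rw [h2 _ rfl]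
      simpa using hb x
  have h4 : (∃ w, TwoFormOn A w ∧ IsClosedForm w ∧ Tames w J) →
      ∃ b : Fin 3 → ℝ, (∀ k, ∑ l, (A k l : ℝ) * b l = b k) ∧
        ∀ x, ∑ k, J x 0 k.succ * b k ≠ 0 := by
    rintro ⟨w, hw, hc, ht⟩
    obtain ⟨b, hb0, hDb, hb⟩ := exists_bB hA hJ hT hw hc ht
    refine ⟨fun k => b k.succ, fun k => ?_, fun x => ?_⟩
    · have := congrFun hDb k.succ
      rw [blk_succ] at this
      simpa [mulVec, dotProduct, re_apply] using this
    · rw [← h2 b hb0]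
      exact hb x
  refine ⟨⟨fun h => ?_, fun ⟨w, a, b, c, _⟩ => ⟨w, a, b, c⟩⟩,
    ⟨fun h => h3 (h4 h), fun ⟨w, a, _, b, c, _⟩ => ⟨w, a, b, c⟩⟩,
    ⟨h4, fun h => ?_⟩⟩
  · obtain ⟨w, a, _, b, c, d⟩ := h3 (h4 h)
    exact ⟨w, a, b, c, d⟩
  · obtain ⟨w, a, _, b, c, _⟩ := h3 h
    exact ⟨w, a, b, c⟩

end Vale.Agent.Results.P204.MappingTori
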