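import Vale.Agent.P204.Main

open scoped ContDiff
open Matrix

namespace Vale.Agent.Results.P204.TorusInvariant

open Vale.Agent.P204

/-- Let `J` be a smooth almost complex structure on the torus `T^4 = R^4 / Z^4` that is invariant
under the subtorus `T^3` of translations of the last three coordinates (it depends on the first
coordinate only). The following are equivalent:
(1) `J` is tamed by some symplectic form on `T^4` (no invariance of the form is assumed);
(2) `J` is compatible with some symplectic form on `T^4`;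
(3) `J` is compatible with some `T^3`-invariant symplectic form on `T^4`;
(4) for some fixed vector `b` of `R^3`, the first component of `J (0, b)` vanishes nowhere. -/
theorem result (J : Field) (hJ : IsAlmostComplex J) (hT : TorusInvariant J) :
    ((∃ w, IsTwoForm w ∧ IsClosedForm w ∧ Tames w J) ↔
      (∃ w, IsTwoForm w ∧ IsClosedForm w ∧ Tames w J ∧ Invariant w J)) ∧
    ((∃ w, IsTwoForm w ∧ IsClosedForm w ∧ Tames w J) ↔
      (∃ w, IsTwoForm w ∧ TorusInvariant w ∧ IsClosedForm w ∧ Tames w J ∧ Invariant w J)) ∧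
    ((∃ w, IsTwoForm w ∧ IsClosedForm w ∧ Tames w J) ↔
      (∃ b : Fin 3 → ℝ, ∀ x, ∑ k, J x 0 k.succ * b k ≠ 0)) := by
  have h1 : (∃ w, IsTwoForm w ∧ IsClosedForm w ∧ Tames w J) →
      ∃ b : Fin 4 → ℝ, b 0 = 0 ∧ ∀ x, pp (J x) b ≠ 0 := fun ⟨w, hw, hc, ht⟩ =>
    exists_b hJ hT hw hc ht
  have h2 : ∀ b : Fin 4 → ℝ, b 0 = 0 → ∀ x, pp (J x) b = ∑ k : Fin 3, J x 0 k.succ * b k.succ := by
    intro b hb x
    simp only [pp, mulVec, dotProduct, Fin.sum_univ_succ (n := 3), hb, mul_zero, zero_add]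
  have h3 : (∃ b : Fin 3 → ℝ, ∀ x, ∑ k, J x 0 k.succ * b k ≠ 0) →
      ∃ w, IsTwoForm w ∧ TorusInvariant w ∧ IsClosedForm w ∧ Tames w J ∧ Invariant w J := by
    rintro ⟨b, hb⟩
    refine exists_compatible hJ hT (b := Fin.cons 0 b) rfl fun x => ?_
    rw [h2 _ rfl]
    simpa using hb x
  have h4 : (∃ w, IsTwoForm w ∧ IsClosedForm w ∧ Tames w J) →
      ∃ b : Fin 3 → ℝ, ∀ x, ∑ k, J x 0 k.succ * b k ≠ 0 := by
    intro h
    obtain ⟨b, hb0, hb⟩ := h1 h
    refine ⟨fun k => b k.succ, fun x => ?_⟩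
    rw [← h2 b hb0]
    exact hb x
  refine ⟨⟨fun h => ?_, fun ⟨w, a, b, c, _⟩ => ⟨w, a, b, c⟩⟩,
    ⟨fun h => h3 (h4 h), fun ⟨w, a, _, b, c, _⟩ => ⟨w, a, b, c⟩⟩,
    ⟨h4, fun h => ?_⟩⟩
  · obtain ⟨w, a, _, b, c, d⟩ := h3 (h4 h)
    exact ⟨w, a, b, c, d⟩
  · obtain ⟨w, a, _, b, c, _⟩ := h3 h
    exact ⟨w, a, b, c⟩

end Vale.Agent.Results.P204.TorusInvariant
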